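import Vale.Agent.P263B94.Loop
import Vale.Agent.P263B15.Rows

/-! # P263B: the rows `LOOPSC` and `ADJ` -/

open Topology Set OnePoint Vale.Agent.P246.T

namespace Vale.Agent.P263B94

open Vale.Agent.P263.AD.Freu Vale.Agent.P263B15

theorem loopsc : LOOPSC := by
  intro B _ b hB h2
  refine sc_loop_of_lftS fun k hk => Vale.Agent.P178.H551.lft b 1 (fun j hj c hc => ?_) k (by omega)
  obtain rfl : j = 0 := by omega
  exact h2 c hc

variable {B : Type} [TopologicalSpace B] {b : B} {m : ℕ}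

/-- the adjoint of a based map -/
noncomputable def ad (f : C(Sp (m + 1), B)) (hf : f ∞ = b) : C(Sp m, Lp b) :=
  ⟨fun x => adj (P := Unit) ⟨fun q => f q.2, by fun_prop⟩ (fun _ => hf) ((), x), by fun_prop⟩

theorem ad_apply (f : C(Sp (m + 1), B)) (hf : f ∞ = b) (x : Sp m) (t : I) :
    (ad f hf x).1.1 t = f (sq m (x, t)) := rfl

theorem ad_infty (f : C(Sp (m + 1), B)) (hf : f ∞ = b) : ad f hf ∞ = kL b :=
  adj_infty (P := Unit) ⟨fun q => f q.2, by fun_prop⟩ (fun _ => hf) ()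

theorem ad_const : ad (ContinuousMap.const (Sp (m + 1)) b) rfl = ContinuousMap.const _ (kL b) :=
  ContinuousMap.ext fun _ => loop_ext fun _ => rfl

theorem rel_of_ad {f g : C(Sp (m + 1), B)} (hf : f ∞ = b) (hg : g ∞ = b)
    (h : (ad f hf).HomotopicRel (ad g hg) {∞}) : f.HomotopicRel g {∞} := by
  obtain ⟨H⟩ := h
  have hH : ∀ a, H.toContinuousMap (a, ∞) = kL b := fun a =>
    (H.eq_fst a (mem_singleton _)).trans (ad_infty f hf)
  obtain ⟨G, hG⟩ := exists_unadj H.toContinuousMap hH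
  refine ⟨⟨⟨G, fun y => ?_, fun y => ?_⟩, ?_⟩⟩
  · obtain ⟨x, t, rfl⟩ := sq_surj m y
    refine (hG 0 x t).trans ?_
    rw [show H.toContinuousMap (0, x) = ad f hf x from H.apply_zero x, ad_apply]
  · obtain ⟨x, t, rfl⟩ := sq_surj m y
    refine (hG 1 x t).trans ?_
    rw [show H.toContinuousMap (1, x) = ad g hg x from H.apply_one x, ad_apply]
  · rintro a y rfl
    change G (a, ∞) = f ∞
    rw [hf, ← sq_infty m 0, hG, hH]
    rfl

theorem adj_row : ADJ := by
  intro B _ b m h f g hf hg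
  rcases h (ad f hf) (ad g hg) (ad_infty f hf) (ad_infty g hg) with h1 | h1 | h1
  · exact Or.inl (rel_of_ad hf rfl ((ad_const (b := b) (m := m)).symm ▸ h1))
  · exact Or.inr (Or.inl (rel_of_ad hg rfl ((ad_const (b := b) (m := m)).symm ▸ h1)))
  · exact Or.inr (Or.inr (rel_of_ad hf hg h1))

end Vale.Agent.P263B94
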