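import Vale.Agent.P263.AD.Freu

/-!
# P263B: homotopy groups of loop spaces

* `ap n` : the homeomorphism `S^n ∧ S^1 → S^(n+1)`.
* `exists_adj`, `exists_unadj` : families of maps `S^n → Ω Z` and families of maps `S^(n+1) → Z`.
* `pn_loop_iff` : `π_n (Ω Z) = 0` if and only if `π_(n+1) Z = 0`.
-/

open Topology Set Filter Metric Vale.Agent.P246.T

namespace Vale.Agent.P263B94

open Vale.Agent.P263.AD.Freu Vale.Agent.P251.G Vale.Agent.P251.G.LC

/-- `ℝⁿ × ℝ = ℝⁿ⁺¹` -/
noncomputable def sn (n : ℕ) : ((Fin n → ℝ) × ℝ) ≃ₜ (Fin (n + 1) → ℝ) where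
  toFun p := Fin.snoc (α := fun _ => ℝ) p.1 p.2
  invFun v := (fun i => v i.castSucc, v (Fin.last n))
  left_inv p := by
    refine Prod.ext (funext fun i => ?_) ?_
    · simp
    · simp
  right_inv v := by
    funext i
    induction i using Fin.lastCases with
    | last => simp
    | cast i => simp
  continuous_toFun := by
    refine continuous_pi fun i => ?_
    induction i using Fin.lastCases with
    | last => simpa using continuous_snd
    | cast i =>
      simp only [Fin.snoc_castSucc]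
      fun_prop
  continuous_invFun := by fun_prop

/-- `Sⁿ ∧ S¹ = Sⁿ⁺¹` -/
noncomputable def snP (n : ℕ) : OnePoint ((Fin n → ℝ) × ℝ) ≃ₜ OnePoint (Fin (n + 1) → ℝ) :=
  (sn n).onePointCongr

theorem snP_infty (n : ℕ) : snP n OnePoint.infty = OnePoint.infty := rfl

theorem snP_symm_infty (n : ℕ) : (snP n).symm OnePoint.infty = OnePoint.infty := rfl

/-- the quotient map `Sⁿ × I → Sⁿ⁺¹` -/
noncomputable def sq (n : ℕ) : C(OnePoint (Fin n → ℝ) × I, OnePoint (Fin (n + 1) → ℝ)) :=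
  ⟨fun q => snP n (smash q.1 (ps q.2)), (snP n).continuous.comp
    ((continuous_smash (X := Fin n → ℝ) (Y := ℝ)).comp (continuous_fst.prodMk
      (ps.continuous.comp continuous_snd)))⟩

theorem sq_zero (n : ℕ) (x : OnePoint (Fin n → ℝ)) : sq n (x, 0) = OnePoint.infty := by
  change snP n (smash x (ps 0)) = _
  rw [ps_zero, smash_infty_right, snP_infty]

theorem sq_one (n : ℕ) (x : OnePoint (Fin n → ℝ)) : sq n (x, 1) = OnePoint.infty := by
  change snP n (smash x (ps 1)) = _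
  rw [ps_one, smash_infty_right, snP_infty]

theorem sq_infty (n : ℕ) (t : I) : sq n (OnePoint.infty, t) = OnePoint.infty := by
  change snP n (smash OnePoint.infty (ps t)) = _
  rw [smash_infty_left, snP_infty]

theorem sq_surj (n : ℕ) (y : OnePoint (Fin (n + 1) → ℝ)) : ∃ x t, y = sq n (x, t) := by
  obtain ⟨x, t, h⟩ := exists_smash_ps ((snP n).symm y)
  refine ⟨x, t, ?_⟩
  change y = snP n (smash x (ps t))
  rw [← h, Homeomorph.apply_symm_apply]

variable {Z : Type} [TopologicalSpace Z] {z : Z} {n : ℕ}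

/-- families of loops give families of maps of the next sphere -/
theorem exists_unadj (F : C(I × OnePoint (Fin n → ℝ), ↥(ev z ⁻¹' {z})))
    (hF : ∀ a, F (a, OnePoint.infty) = kL z) :
    ∃ G : C(I × OnePoint (Fin (n + 1) → ℝ), Z), ∀ a x t, G (a, sq n (x, t)) = (F (a, x)).1.1 t := by
  obtain ⟨g, hg⟩ := exists_descQ (V := Fin n → ℝ) z
    (⟨fun q => (F q.1).1.1 q.2, continuous_pp (continuous_subtype_val.comp
      (F.continuous.comp continuous_fst)) continuous_snd⟩ :
      C((I × OnePoint (Fin n → ℝ)) × I, Z))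
    (fun q => (F q).1.2) (fun q => (F q).2) (fun a t => by
      change (F (a, OnePoint.infty)).1.1 t = _
      rw [hF]
      rfl)
  refine ⟨⟨fun q => g (q.1, (snP n).symm q.2), by fun_prop⟩, fun a x t => ?_⟩
  change g (a, (snP n).symm (snP n (smash x (ps t)))) = _
  rw [Homeomorph.symm_apply_apply]
  exact hg a x t

/-- the adjoint of a family of maps of the sphere -/
noncomputable def adj {P : Type} [TopologicalSpace P] (G : C(P × OnePoint (Fin (n + 1) → ℝ), Z))
    (hG : ∀ a, G (a, OnePoint.infty) = z) : C(P × OnePoint (Fin n → ℝ), ↥(ev z ⁻¹' {z})) :=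
  ⟨fun q => ⟨mkP (fun r : (P × OnePoint (Fin n → ℝ)) × I => G (r.1.1, sq n (r.1.2, r.2)))
      (by fun_prop) (fun r => by rw [sq_zero, hG]) q, by
      change G (q.1, sq n (q.2, 1)) = z
      rw [sq_one, hG]⟩, Continuous.subtype_mk (ContinuousMap.continuous _) _⟩

theorem adj_apply {P : Type} [TopologicalSpace P] (G : C(P × OnePoint (Fin (n + 1) → ℝ), Z))
    (hG : ∀ a, G (a, OnePoint.infty) = z) (a : P) (x : OnePoint (Fin n → ℝ)) (t : I) :
    (adj G hG (a, x)).1.1 t = G (a, sq n (x, t)) := rfl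

theorem loop_ext {γ γ' : ↥(ev z ⁻¹' {z})} (h : ∀ t, γ.1.1 t = γ'.1.1 t) : γ = γ' :=
  Subtype.ext (pp_ext h)

theorem adj_infty {P : Type} [TopologicalSpace P] (G : C(P × OnePoint (Fin (n + 1) → ℝ), Z))
    (hG : ∀ a, G (a, OnePoint.infty) = z) (a : P) : adj G hG (a, OnePoint.infty) = kL z :=
  loop_ext fun t => by rw [adj_apply, sq_infty, hG]; rfl

theorem pn_loop_of (h : PN Z z (n + 1)) : PN ↥(ev z ⁻¹' {z}) (kL z) n := by
  intro f hf
  obtain ⟨g, hg⟩ := exists_unadj (n := n) ⟨fun q => f q.2, by fun_prop⟩ (fun _ => hf)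
  obtain ⟨H, h0, h1, h2⟩ := h ⟨fun y => g (0, y), by fun_prop⟩ (by
    have := hg 0 OnePoint.infty 0
    rw [sq_infty] at this
    exact this.trans (f OnePoint.infty).1.2)
  refine ⟨adj H h2, fun x => loop_ext fun t => ?_, fun x => loop_ext fun t => ?_,
    fun a => adj_infty H h2 a⟩
  · rw [adj_apply, h0]
    exact hg 0 x t
  · rw [adj_apply, h1]
    rfl

theorem pn_of_loop (h : PN ↥(ev z ⁻¹' {z}) (kL z) n) : PN Z z (n + 1) := by
  intro f hf
  let F : C(Unit × OnePoint (Fin (n + 1) → ℝ), Z) := ⟨fun q => f q.2, by fun_prop⟩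
  have hF : ∀ a, F (a, OnePoint.infty) = z := fun _ => hf
  obtain ⟨H, h0, h1, h2⟩ := h ⟨fun x => adj F hF ((), x), by fun_prop⟩ (adj_infty F hF ())
  obtain ⟨G, hG⟩ := exists_unadj H h2
  refine ⟨G, fun y => ?_, fun y => ?_, fun a => ?_⟩
  · obtain ⟨x, t, rfl⟩ := sq_surj n y
    rw [hG, h0]
    rfl
  · obtain ⟨x, t, rfl⟩ := sq_surj n y
    rw [hG, h1]
    rfl
  · rw [← sq_infty n 0, hG, h2]
    rfl

theorem pn_loop_iff : PN ↥(ev z ⁻¹' {z}) (kL z) n ↔ PN Z z (n + 1) := ⟨pn_of_loop, pn_loop_of⟩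

theorem sc_loop_of (h1 : PN Z z 1) (h2 : PN Z z 2) : SimplyConnectedSpace ↥(ev z ⁻¹' {z}) :=
  sc_of_pn (kL z) (pn_loop_of h1) (pn_loop_of h2)

/-! ### `PN` and `Lft` -/

theorem qD_eq_infty {x : Dk n} (h : qD n x = OnePoint.infty) : ‖(x : Fin n → ℝ)‖ = 1 := by
  by_contra h3
  rw [qD_of_ne h3] at h
  exact OnePoint.coe_ne_infty _ h

theorem pn_of_lft (hn : 1 ≤ n) (h : Lft ({z} : Set Z) n) : PN Z z n := by
  intro f hf
  obtain ⟨K, hK0, hK1, hK2⟩ := h (f.comp (qD n)) (ContinuousMap.const _ z)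
    (fun x => by
      change z = f (qD n x.1)
      rw [qD_bd x.2, hf])
    (fun _ => rfl)
  have hKb : ∀ t (x : Dk n), ‖(x : Fin n → ℝ)‖ = 1 → K (t, x) = z :=
    fun t x hx => hK1 t ⟨x, hx⟩
  obtain ⟨g, hg⟩ := exists_descD hn K (fun t x y hx hy => by rw [hKb t x hx, hKb t y hy])
  refine ⟨g, fun x => ?_, fun x => ?_, fun t => ?_⟩
  · obtain ⟨y, rfl⟩ := qD_surjective hn x
    rw [hg]
    exact hK0 y
  · obtain ⟨y, rfl⟩ := qD_surjective hn x
    rw [hg]
    exact hK2 y
  · obtain ⟨y, hy⟩ := qD_surjective hn (OnePoint.infty : OnePoint (Fin n → ℝ))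
    rw [← hy, hg]
    exact hKb t y (qD_eq_infty hy)

theorem pc_of_pn (h : PN Z z 0) : PathConnectedSpace Z := by
  have hj : ∀ x : Z, Joined x z := by
    intro x
    obtain ⟨H, hH0, hH1, -⟩ := h ⟨fun y => y.elim z (fun _ => x), by
      rw [OnePoint.continuous_iff]
      refine ⟨?_, by change Continuous (fun _ : Fin 0 → ℝ => x); exact continuous_const⟩
      rw [coclosedCompact_eq_cocompact, cocompact_eq_bot]
      exact tendsto_bot⟩ rfl
    refine ⟨⟨⟨fun t => H (t, ((0 : Fin 0 → ℝ) : OnePoint (Fin 0 → ℝ))), by fun_prop⟩, ?_, ?_⟩⟩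
    · exact hH0 _
    · exact hH1 _
  exact ⟨⟨z⟩, fun x y => (hj x).trans (hj y).symm⟩

theorem pn_zero [PathConnectedSpace Z] (z : Z) : PN Z z 0 := by
  intro f hf
  let γ : Path (f ((0 : Fin 0 → ℝ) : OnePoint (Fin 0 → ℝ))) z := PathConnectedSpace.somePath _ _
  have hc : Continuous fun q : I × OnePoint (Fin 0 → ℝ) => (q.2.elim z fun _ => γ q.1 : Z) := by
    have hd : DiscreteTopology (OnePoint (Fin 0 → ℝ)) := by
      have : Finite (OnePoint (Fin 0 → ℝ)) := inferInstanceAs (Finite (Option (Fin 0 → ℝ)))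
      infer_instance
    rw [continuous_prod_of_discrete_right]
    intro y
    induction y using OnePoint.rec with
    | infty => exact continuous_const
    | coe v => exact γ.continuous
  refine ⟨⟨_, hc⟩, fun x => ?_, fun x => ?_, fun _ => rfl⟩
  · induction x using OnePoint.rec with
    | infty => exact hf.symm
    | coe v =>
      rw [Subsingleton.elim v 0]
      exact γ.source
  · induction x using OnePoint.rec with
    | infty => rfl
    | coe v => exact γ.target

theorem pn_of_lftS (h0 : LftS ({z} : Set Z) 0) (h : LftS ({z} : Set Z) n) : PN Z z n := by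
  rcases Nat.eq_zero_or_pos n with rfl | hn
  · have hj : ∀ x : Z, Joined x z := by
      intro x
      obtain ⟨K, k0, -, k1⟩ := h0 (ContinuousMap.const _ x)
        (fun i => ⟨fun q => absurd q.2.2.2 (by simp), by
          refine continuous_iff_continuousAt.2 fun q => absurd q.2.2.2 (by simp)⟩)
        (fun i x => absurd x.2.2 (by simp)) (fun i j x => absurd x.2.2 (by simp))
        (fun i x => absurd x.2.2 (by simp))
      have x0 : Dl 1 := Classical.arbitrary _
      exact ⟨⟨⟨fun t => K (t, x0), by fun_prop⟩, k0 x0, k1 x0⟩⟩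
    have : PathConnectedSpace Z := ⟨⟨z⟩, fun x y => (hj x).trans (hj y).symm⟩
    exact pn_zero z
  · exact pn_of_lft hn (CV.main Z {z} n h)

theorem pn_one [SimplyConnectedSpace Z] (z : Z) : PN Z z 1 :=
  pn_of_lft le_rfl (CV.main Z {z} 1 (RH.lft1 (isPathConnected_singleton z)))

/-- vanishing homotopy groups give the lifting property -/
theorem lftS_of_pn : ∀ (n : ℕ) (Z : Type) [TopologicalSpace Z] (z : Z), (∀ k ≤ n, PN Z z k) →
    ∀ k ≤ n, LftS ({z} : Set Z) k := by
  intro n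
  induction n with
  | zero =>
    intro Z _ z h k hk
    obtain rfl : k = 0 := by omega
    have := pc_of_pn (h 0 le_rfl)
    exact RH.lft0 (singleton_nonempty z)
  | succ n ih =>
    intro Z _ z h k hk
    rcases Nat.lt_or_ge k (n + 1) with hk' | hk'
    · exact ih Z z (fun j hj => h j (by omega)) k (by omega)
    obtain rfl : k = n + 1 := by omega
    have hpc := pc_of_pn (h 0 (by omega))
    have hl := ih ↥(ev z ⁻¹' {z}) (kL z) fun j hj => pn_loop_of (h (j + 1) (by omega))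
    refine PS.P5 hpc z {z} (n + 1) fun f hfA hff => ?_
    obtain ⟨g, hg⟩ := RH.ext_of_lft _ (kL z) n hl
      (fun i => ⟨fun x => ⟨f i x, hfA i x⟩, (f i).continuous.subtype_mk _⟩)
      (fun i j x y hxy => Subtype.ext (hff i j x y hxy))
    refine ⟨(PR.inc _).comp g, fun i x => ?_, fun x => (g x).2⟩
    rw [ContinuousMap.comp_apply, hg]
    rfl

theorem lft_of_pn (h : ∀ k ≤ n, PN Z z k) {k : ℕ} (hk : k ≤ n) : Lft ({z} : Set Z) k :=
  CV.main Z {z} k (lftS_of_pn n Z z h k hk)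

/-- connectivity of the loop space -/
theorem lftS_loop (h : ∀ k ≤ n + 1, LftS ({z} : Set Z) k) :
    ∀ k ≤ n, LftS ({kL z} : Set ↥(ev z ⁻¹' {z})) k :=
  lftS_of_pn n _ _ fun k hk => pn_loop_of (pn_of_lftS (h 0 (by omega)) (h (k + 1) (by omega)))

theorem sc_of_lftS (h0 : LftS ({z} : Set Z) 0) (h1 : LftS ({z} : Set Z) 1) :
    SimplyConnectedSpace Z := sc_of_pn z (pn_of_lftS h0 h0) (pn_of_lftS h0 h1)

theorem sc_loop_of_lftS (h : ∀ k ≤ 2, LftS ({z} : Set Z) k) :
    SimplyConnectedSpace ↥(ev z ⁻¹' {z}) :=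
  sc_of_lftS (lftS_loop (n := 1) h 0 (by omega)) (lftS_loop (n := 1) h 1 le_rfl)

end Vale.Agent.P263B94
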