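import Vale.Agent.P263B15.Defs

/-! # P263B: the clutching map of the fibre is injective in homology -/

open Topology Set OnePoint Vale.Agent.P246.T Vale.Agent.P246.T.FM

namespace Vale.Agent.P263B94

open Vale.Agent.P263.AD.Freu Vale.Agent.P263B15

variable {A B Z : Type} [TopologicalSpace A] [TopologicalSpace B] [TopologicalSpace Z]
  {a₀ : A} {b : B} {z₀ : Z}

/-- the map of loop spaces -/
def om (e : C(B, Z)) (he : e b = z₀) : C(Lp b, Lp z₀) :=
  ⟨fun γ => ⟨mkP (fun q : Lp b × I => e (q.1.1.1 q.2))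
      (e.continuous.comp (continuous_pp (continuous_subtype_val.comp continuous_fst) continuous_snd))
      (fun γ => by rw [γ.1.2, he]) γ, by
      change e (γ.1.1 1) = z₀
      rw [show γ.1.1 1 = b from γ.2, he]⟩,
    Continuous.subtype_mk (ContinuousMap.continuous _) _⟩

theorem om_apply (e : C(B, Z)) (he : e b = z₀) (γ : Lp b) (t : I) :
    (om e he γ).1.1 t = e (γ.1.1 t) := rfl

/-- a reparametrisation of loops is homotopic to the identity -/
theorem reparam {P : Type} [TopologicalSpace P] (F G : C(P, Lp z₀)) (ρ : C(I, I)) (h0 : ρ 0 = 0)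
    (h1 : ρ 1 = 1) (h : ∀ p t, (F p).1.1 t = (G p).1.1 (ρ t)) : F.Homotopic G := by
  let u : I × I → I := fun q => cl ((1 - (q.1 : ℝ)) * (ρ q.2 : ℝ) + q.1 * (q.2 : ℝ))
  have hu : Continuous u := continuous_cl.comp (by fun_prop)
  let K : C(I × P, PP z₀) := mkP (fun q : (I × P) × I => (G q.1.2).1.1 (u (q.1.1, q.2)))
    (continuous_pp (continuous_subtype_val.comp (G.continuous.comp
      (continuous_snd.comp continuous_fst))) (hu.comp (by fun_prop))) (fun q => by
      have : u (q.1, 0) = 0 := cl_of_nonpos (by rw [h0]; simp)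
      rw [this]
      exact (G q.2).1.2)
  have hK : ∀ q, ev z₀ (K q) = z₀ := by
    intro q
    have : u (q.1, 1) = 1 := cl_of_one_le (by rw [h1]; simp)
    change (G q.2).1.1 (u (q.1, 1)) = z₀
    rw [this]
    exact (G q.2).2
  refine homotopic_of (fun q => ⟨K q, hK q⟩) (Continuous.subtype_mk K.continuous _) ?_ ?_
  · intro p
    refine Subtype.ext (pp_ext fun t => ?_)
    change (G p).1.1 (u (0, t)) = _
    have : u (0, t) = ρ t := by
      change cl ((1 - ((0 : I) : ℝ)) * (ρ t : ℝ) + ((0 : I) : ℝ) * (t : ℝ)) = _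
      simp [cl_coe]
    rw [this, h]
  · intro p
    refine Subtype.ext (pp_ext fun t => ?_)
    change (G p).1.1 (u (1, t)) = _
    have : u (1, t) = t := by
      change cl ((1 - ((1 : I) : ℝ)) * (ρ t : ℝ) + ((1 : I) : ℝ) * (t : ℝ)) = _
      simp [cl_coe]
    rw [this]

variable (D : SuspData A B a₀ b) {e : C(B, Z)} {κ : C(A, Lp z₀)} {σ : C(Lp z₀, A)} {ρ : C(I, I)}

theorem om_j (he : e b = z₀) (h0 : ρ 0 = 0) (h1 : ρ 1 = 1)
    (h : ∀ a t, e ((D.j a).1.1 t) = (κ a).1.1 (ρ t)) : ((om e he).comp D.j).Homotopic κ :=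
  reparam _ κ ρ h0 h1 h

/-- the image of the clutching map -/
theorem om_clut (he : e b = z₀) (h0 : ρ 0 = 0) (h1 : ρ 1 = 1)
    (h : ∀ a t, e ((D.j a).1.1 t) = (κ a).1.1 (ρ t)) :
    ((om e he).comp (clut D.c₁ D.c₂)).Homotopic (κ.comp D.r) := by
  have h2 : (clut D.c₁ D.c₂).Homotopic (D.j.comp D.r) := by
    have h3 := (ContinuousMap.Homotopic.refl (clut D.c₁ D.c₂)).comp D.ir
    rw [ContinuousMap.comp_id, ← ContinuousMap.comp_assoc] at h3
    exact h3.symm.trans (D.cl.comp (ContinuousMap.Homotopic.refl D.r))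
  refine ((ContinuousMap.Homotopic.refl (om e he)).comp h2).trans ?_
  rw [← ContinuousMap.comp_assoc]
  exact (om_j D he h0 h1 h).comp (ContinuousMap.Homotopic.refl D.r)

/-- a map homotopic to the image of the clutching map has a left inverse up to homotopy -/
theorem left_inv (he : e b = z₀) (h0 : ρ 0 = 0) (h1 : ρ 1 = 1)
    (hσ : (σ.comp κ).Homotopic (ContinuousMap.id _))
    (h : ∀ a t, e ((D.j a).1.1 t) = (κ a).1.1 (ρ t)) {F : C(↥(D.V₁ ∩ D.V₂), Lp z₀)}
    (hF : F.Homotopic ((om e he).comp (clut D.c₁ D.c₂))) :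
    ((D.i.comp σ).comp F).Homotopic (ContinuousMap.id _) := by
  have h2 := (ContinuousMap.Homotopic.refl (D.i.comp σ)).comp (hF.trans (om_clut D he h0 h1 h))
  refine h2.trans (ContinuousMap.Homotopic.trans ?_ D.ir)
  have h3 := ((ContinuousMap.Homotopic.refl D.i).comp hσ).comp (ContinuousMap.Homotopic.refl D.r)
  rw [ContinuousMap.comp_id] at h3
  exact h3

/-- **the field `inj`** -/
theorem inj_clut (he : e b = z₀) (h0 : ρ 0 = 0) (h1 : ρ 1 = 1)
    (hσ : (σ.comp κ).Homotopic (ContinuousMap.id _))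
    (h : ∀ a t, e ((D.j a).1.1 t) = (κ a).1.1 (ρ t)) {F : C(↥(D.V₁ ∩ D.V₂), Lp z₀)}
    (hF : F.Homotopic ((om e he).comp (clut D.c₁ D.c₂))) (n : ℕ) (c : Ch n ↥(D.V₁ ∩ D.V₂))
    (hc : RedCyc n c) (hz : Hg (push F n c) 0) : Hg c 0 := by
  have h2 := hg_of_homotopic (left_inv D he h0 h1 hσ h hF) hc
  rw [push_id, push_comp] at h2
  exact h2.symm.trans (hz.push_zero _)

/-- the same, from the formula for the clutching map -/
theorem inj_formula (he : e b = z₀) (h0 : ρ 0 = 0) (h1 : ρ 1 = 1)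
    (hσ : (σ.comp κ).Homotopic (ContinuousMap.id _))
    (h : ∀ a t, e ((D.j a).1.1 t) = (κ a).1.1 (ρ t)) {F : C(↥(D.V₁ ∩ D.V₂), Lp z₀)}
    (hF : ∀ y t, (F y).1.1 t = if (t : ℝ) ≤ 1 / 2 then
      e (D.c₂.h (cl (2 - 4 * (t : ℝ)), ⟨y.1, y.2.2⟩))
      else e (D.c₁.h (cl (2 * (t : ℝ) - 1), ⟨y.1, y.2.1⟩))) (n : ℕ) (c : Ch n ↥(D.V₁ ∩ D.V₂))
    (hc : RedCyc n c) (hz : Hg (push F n c) 0) : Hg c 0 := by
  refine inj_clut D he h0 h1 hσ h ?_ n c hc hz
  have : F = (om e he).comp (clut D.c₁ D.c₂) := by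
    refine ContinuousMap.ext fun y => Subtype.ext (pp_ext fun t => ?_)
    rw [hF, ContinuousMap.comp_apply, om_apply, clut_apply]
    split_ifs <;> rfl
  rw [this]

end Vale.Agent.P263B94
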